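import Vale.Agent.P101.Statement
import Vale.Agent.P101.Quotient
import Vale.Agent.P101.Ideal
import Vale.Agent.P101.Full
import Vale.Agent.P101.Drop
import Vale.Agent.P101.DimDrop.Main
import Vale.Agent.P101.Commuting
import Vale.Agent.P101.DropN.Lift

/-!
P101 (Kirchberg-Rordam): the central sequence algebra has no characters if and only if the
dimension drop algebra Z(2,3) maps unitally into it, and then countably many unital copies of Z(2,3)
with pairwise commuting ranges map into it, and every Z(n,n+1) maps unitally into it.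
-/

namespace Vale.Agent.P101.Variants.NoCharacters

open Filter Vale.Agent.P101 Vale.Agent.P101.DropN
open scoped Topology BoundedContinuousFunction

/-- A character factoring through `π` excludes the dimension drop relations in the image. -/
theorem no_char_of_relations {R F : Type*} [Ring R] [StarRing R] [Algebra ℂ R] [Ring F]
    [StarRing F] [Algebra ℂ F] (π : R →⋆ₐ[ℂ] F) (hπs : Function.Surjective π)
    (χ : R →⋆ₐ[ℂ] ℂ) (hker : ∀ f, π f = 0 → χ f = 0) {y s : F} (h : DropRelations y s) :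
    False := by
  obtain ⟨hy, hs, hys⟩ := h
  obtain ⟨Y, rfl⟩ := hπs y
  obtain ⟨S, rfl⟩ := hπs s
  have cy : χ Y = 0 := by
    have := hker (Y * Y) (by rw [map_mul, hy])
    rw [map_mul] at this
    exact mul_self_eq_zero.1 this
  have cs : χ S = 0 := by
    have := hker (star Y * Y * S - S) (by
      rw [map_sub, map_mul, map_mul, map_star, hys, sub_self])
    simpa [cy] using this
  have := hker (star S * S - (1 - star Y * Y - Y * star Y)) (by
    simp [map_star, hs])
  simp [cy, cs] at this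

theorem result : ∀ (A : Type) [CStarAlgebra A] [TopologicalSpace.SeparableSpace A]
    (w : Ultrafilter ℕ), (w : Filter ℕ) ≤ cofinite →
    ((¬ ∃ χ : centralSeq (w : Filter ℕ) A →⋆ₐ[ℂ] ℂ,
        ∀ f : centralSeq (w : Filter ℕ) A, IsNull (w : Filter ℕ) (f : ℕ →ᵇ A) → χ f = 0) ↔
      ∃ φ : ZTwoThree → centralSeq (w : Filter ℕ) A, IsHomModNull (w : Filter ℕ) φ) ∧
    ((¬ ∃ χ : centralSeq (w : Filter ℕ) A →⋆ₐ[ℂ] ℂ,
        ∀ f : centralSeq (w : Filter ℕ) A, IsNull (w : Filter ℕ) (f : ℕ →ᵇ A) → χ f = 0) →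
      (∃ φ : ℕ → ZTwoThree → centralSeq (w : Filter ℕ) A,
        (∀ k, IsHomModNull (w : Filter ℕ) (φ k)) ∧
        ∀ k l, k ≠ l → ∀ f g, Tendsto
          (fun n => (φ k f).1 n * (φ l g).1 n - (φ l g).1 n * (φ k f).1 n)
          (w : Filter ℕ) (𝓝 0)) ∧
        ∀ n, HasDropN (w : Filter ℕ) A n) := by
  intro A _ _ w hw
  obtain ⟨F, instF, π, hπs, hπ, hcop⟩ := quotientPin A w hw
  have e : ∀ {a b : centralSeq (w : Filter ℕ) A},
      Tendsto (fun n => a.1 n - b.1 n) (w : Filter ℕ) (𝓝 0) ↔ π a = π b := by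
    intro a b
    rw [← sub_eq_zero (a := π a), ← map_sub, hπ]
    rfl
  have drop : (¬ ∃ χ : centralSeq (w : Filter ℕ) A →⋆ₐ[ℂ] ℂ,
        ∀ f : centralSeq (w : Filter ℕ) A, IsNull (w : Filter ℕ) (f : ℕ →ᵇ A) → χ f = 0) →
      ∃ y s : F, DropRelations y s := fun hno => by
    have hE : IsEmpty (F →⋆ₐ[ℂ] ℂ) := ⟨fun χ => hno ⟨χ.comp π, fun f hf => by
      rw [StarAlgHom.comp_apply, (hπ f).2 hf, map_zero]⟩⟩
    obtain ⟨k, N, ⟨W⟩⟩ := noCharPin F hE
    obtain ⟨N', ⟨W'⟩⟩ := fullPin F hcop k N W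
    exact dropPin F (witnessCopies_of_hasCopies hcop) N' W'
  let lift : F → centralSeq (w : Filter ℕ) A := Function.surjInv hπs
  have hlift : ∀ x, π (lift x) = x := Function.surjInv_eq hπs
  have hom : ∀ ψ : ZTwoThree →⋆ₐ[ℂ] F, IsHomModNull (w : Filter ℕ) fun f => lift (ψ f) := by
    intro ψ
    refine ⟨fun f hf => ?_, fun f g h hh => ?_, fun f g h hh => ?_,
      fun c f h hh => ?_, fun f h hh => ?_⟩
    · have hf' : f = 1 := Subtype.ext (ContinuousMap.ext hf)
      refine tendsto_sub_nhds_zero_iff.1 ((e (b := 1)).2 ?_)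
      rw [hlift, hf', map_one, map_one]
    · have hh' : h = f + g := Subtype.ext (ContinuousMap.ext hh)
      refine (e (b := lift (ψ f) + lift (ψ g))).2 ?_
      rw [map_add, hlift, hlift, hlift, hh', map_add]
    · have hh' : h = f * g := Subtype.ext (ContinuousMap.ext hh)
      refine (e (b := lift (ψ f) * lift (ψ g))).2 ?_
      rw [map_mul, hlift, hlift, hlift, hh', map_mul]
    · have hh' : h = c • f := Subtype.ext (ContinuousMap.ext hh)
      refine (e (b := c • lift (ψ f))).2 ?_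
      rw [map_smul, hlift, hlift, hh', map_smul]
    · have hh' : h = star f := Subtype.ext (ContinuousMap.ext hh)
      refine (e (b := star (lift (ψ f)))).2 ?_
      rw [map_star, hlift, hlift, hh', map_star]
  refine ⟨⟨fun hno => ?_, ?_⟩, fun hno => ⟨?_, fun n => ?_⟩⟩
  · obtain ⟨ψ⟩ := DimDrop.exists_starAlgHom_iff.2 (drop hno)
    exact ⟨_, hom ψ⟩
  · rintro ⟨φ, h1, hadd, hmul, hsmul, hstar⟩ ⟨χ, hχ⟩
    have p1 : π (φ 1) = π 1 :=
      e.1 (tendsto_sub_nhds_zero_iff.2 (h1 1 fun _ => rfl))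
    rw [map_one] at p1
    have psmul : ∀ (c : ℂ) f, π (φ (c • f)) = c • π (φ f) := fun c f => by
      rw [← map_smul]
      exact e.1 (hsmul c f (c • f) fun _ => rfl)
    have p0 : π (φ 0) = 0 := by
      have := psmul 0 0
      rwa [zero_smul, zero_smul] at this
    let ψ : ZTwoThree →⋆ₐ[ℂ] F :=
      { toFun := fun f => π (φ f)
        map_one' := p1
        map_zero' := p0
        map_add' := fun f g => by
          rw [← map_add]; exact e.1 (hadd f g (f + g) fun _ => rfl)
        map_mul' := fun f g => by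
          rw [← map_mul]; exact e.1 (hmul f g (f * g) fun _ => rfl)
        commutes' := fun c => by
          rw [Algebra.algebraMap_eq_smul_one, psmul, p1, Algebra.algebraMap_eq_smul_one]
        map_star' := fun f => by
          rw [← map_star]; exact e.1 (hstar f (star f) fun _ => rfl) }
    obtain ⟨y, s, hrel⟩ := DimDrop.exists_starAlgHom_iff.1 ⟨ψ⟩
    exact no_char_of_relations π hπs χ (fun f hf => hχ f ((hπ f).1 hf)) hrel
  · obtain ⟨y, s, hrel⟩ := drop hno
    obtain ⟨ψ, hψ⟩ := exists_commuting_copies hcop hrel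
    refine ⟨fun k f => lift (ψ k f), fun k => hom (ψ k), fun k l hkl f g => ?_⟩
    refine (e (a := lift (ψ k f) * lift (ψ l g)) (b := lift (ψ l g) * lift (ψ k f))).2 ?_
    rw [map_mul, map_mul, hlift, hlift]
    exact (hψ k l hkl f g).eq
  · obtain ⟨y, s, hrel⟩ := drop hno
    obtain ⟨x, t, hxt⟩ := exists_dropN_of_hasCopies hcop hrel (n + 1)
    obtain ⟨-, φ, -, hφ⟩ := exists_isHomMod π hπs hπ hxt
    exact ⟨φ, hφ⟩

end Vale.Agent.P101.Variants.NoCharacters
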